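import Mathlib

/-!
Riemann mapping theorem for bounded simply connected open subsets of `ℂ`, Hurwitz' theorem in the
form needed for it, and non-vanishing of the derivative of an injective holomorphic map.
-/

open Set Filter Metric Function Complex
open scoped Topology

namespace Crest.Agent.Lib.RMT

/-- Minimum modulus principle at the centre of a disc. -/
theorem le_norm_center {g : ℂ → ℂ} {c : ℂ} {r m : ℝ} (hr : 0 < r)
    (hg : DiffContOnCl ℂ g (ball c r)) (h0 : ∀ z ∈ closedBall c r, g z ≠ 0)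
    (hm : ∀ z ∈ sphere c r, m ≤ ‖g z‖) : m ≤ ‖g c‖ := by
  rcases le_or_gt m 0 with hm0 | hm0
  · exact hm0.trans (norm_nonneg _)
  have hd : DiffContOnCl ℂ (fun z => (g z)⁻¹) (ball c r) := by
    refine ⟨hg.1.inv fun z hz => h0 z (ball_subset_closedBall hz), ?_⟩
    refine hg.2.inv₀ fun z hz => h0 z ?_
    rwa [closure_ball c hr.ne'] at hz
  have := Complex.norm_le_of_forall_mem_frontier_norm_le (C := m⁻¹) isBounded_ball hd
    (fun z hz => by
      rw [frontier_ball c hr.ne'] at hz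
      rw [norm_inv]
      exact inv_anti₀ hm0 (hm z hz)) (subset_closure (mem_ball_self hr))
  rw [norm_inv] at this
  have hc : 0 < ‖g c‖ := norm_pos_iff.2 (h0 c (mem_closedBall_self hr.le))
  exact (inv_le_inv₀ hc hm0).1 this

/-- Hurwitz' theorem, local form: a locally uniform limit of holomorphic functions without zeros
near `c` that vanishes at `c` vanishes near `c`. -/
theorem hurwitz_local {ι : Type*} {l : Filter ι} [l.NeBot] {F : ι → ℂ → ℂ} {f : ℂ → ℂ}
    {U : Set ℂ} (hU : IsOpen U) (hF : ∀ᶠ i in l, DifferentiableOn ℂ (F i) U)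
    (hF0 : ∀ᶠ i in l, ∀ z ∈ U, F i z ≠ 0) (hlim : TendstoLocallyUniformlyOn F f l U)
    {c : ℂ} (hc : c ∈ U) (hfc : f c = 0) : ∀ᶠ z in 𝓝 c, f z = 0 := by
  have hf : DifferentiableOn ℂ f U := hlim.differentiableOn hF hU
  have hfa : AnalyticAt ℂ f c := hf.analyticAt (hU.mem_nhds hc)
  rcases hfa.eventually_eq_zero_or_eventually_ne_zero with h | h
  · exact h
  exfalso
  have h' : ∀ᶠ z in 𝓝 c, z ≠ c → f z ≠ 0 := eventually_nhdsWithin_iff.1 h
  obtain ⟨r, hr, hrs⟩ := Metric.nhds_basis_closedBall.mem_iff.1 (h'.and (hU.mem_nhds hc))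
  have hsub : closedBall c r ⊆ U := fun z hz => (hrs hz).2
  have hcs : ContinuousOn (fun z => ‖f z‖) (sphere c r) :=
    (hf.continuousOn.mono (sphere_subset_closedBall.trans hsub)).norm
  obtain ⟨z₀, hz₀, hmin⟩ := (isCompact_sphere c r).exists_isMinOn
    (NormedSpace.sphere_nonempty.2 hr.le) hcs
  have hm : 0 < ‖f z₀‖ := norm_pos_iff.2
    ((hrs (sphere_subset_closedBall hz₀)).1 (ne_of_mem_sphere hz₀ hr.ne'))
  have hu : TendstoUniformlyOn F f l (closedBall c r) :=
    (tendstoLocallyUniformlyOn_iff_forall_isCompact hU).1 hlim _ hsub (isCompact_closedBall c r)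
  have h1 := Metric.tendstoUniformlyOn_iff.1 hu (‖f z₀‖ / 2) (half_pos hm)
  obtain ⟨i, hi1, hi2, hi3⟩ := (h1.and (hF.and hF0)).exists
  have := le_norm_center (g := F i) (c := c) (m := ‖f z₀‖ / 2) hr
    (hi2.diffContOnCl_ball hsub) (fun z hz => hi3 z (hsub hz)) (fun z hz => by
      have h2 := hi1 z (sphere_subset_closedBall hz)
      have h3 : ‖f z₀‖ ≤ ‖f z‖ := hmin hz
      rw [dist_eq_norm] at h2
      have h4 := norm_sub_norm_le (f z) (F i z)
      linarith)
  have h5 := hi1 c (mem_closedBall_self hr.le)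
  rw [hfc, dist_zero_left] at h5
  linarith

/-- An injective holomorphic function has non-vanishing derivative. -/
theorem deriv_ne_zero_of_injOn {f : ℂ → ℂ} {U : Set ℂ} (hU : IsOpen U)
    (hf : DifferentiableOn ℂ f U) (hinj : InjOn f U) {a : ℂ} (ha : a ∈ U) : deriv f a ≠ 0 := by
  intro hd
  have hfa : AnalyticAt ℂ f a := hf.analyticAt (hU.mem_nhds ha)
  have hga : AnalyticAt ℂ (fun z => f z - f a) a := hfa.sub analyticAt_const
  have hne : analyticOrderAt (fun z => f z - f a) a ≠ ⊤ := by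
    intro h
    rw [analyticOrderAt_eq_top] at h
    have h2 : ∀ᶠ z in 𝓝[≠] a, z = a := by
      filter_upwards [nhdsWithin_le_nhds h, nhdsWithin_le_nhds (hU.mem_nhds ha)] with z hz hzU
      exact hinj hzU ha (sub_eq_zero.1 hz)
    obtain ⟨z, hz1, hz2⟩ := (h2.and self_mem_nhdsWithin).exists
    exact hz2 hz1
  obtain ⟨k, hk⟩ := ENat.ne_top_iff_exists.1 hne
  have hk2 : 2 ≤ k := by
    have : ((2 : ℕ) : ℕ∞) ≤ analyticOrderAt (fun z => f z - f a) a := by
      rw [natCast_le_analyticOrderAt_iff_iteratedDeriv_eq_zero hga]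
      intro i hi
      interval_cases i
      · simp
      · simpa [deriv_sub_const] using hd
    rw [← hk] at this
    exact_mod_cast this
  obtain ⟨φ, hφ, hφ0, hφe⟩ := (hga.analyticOrderAt_eq_natCast).1 hk.symm
  have hk0 : (k : ℂ) ≠ 0 := by exact_mod_cast (by omega : k ≠ 0)
  -- a local `k`-th root
  set ψ : ℂ → ℂ := fun z => exp (log (φ z / φ a) / k) with hψ
  have hψa : AnalyticAt ℂ ψ a := by
    have h1 : AnalyticAt ℂ (fun z => φ z / φ a) a := hφ.div analyticAt_const hφ0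
    have h2 : AnalyticAt ℂ (fun z => log (φ z / φ a)) a :=
      h1.clog (by simp [div_self hφ0])
    exact (h2.div analyticAt_const hk0).cexp
  have hψk : ∀ᶠ z in 𝓝 a, φ a * ψ z ^ k = φ z := by
    filter_upwards [hφ.continuousAt.eventually_ne hφ0] with z hz
    have : ψ z ^ k = φ z / φ a := by
      rw [hψ, ← exp_nat_mul, mul_div_cancel₀ _ hk0, exp_log (div_ne_zero hz hφ0)]
    rw [this]; field_simp
  set h : ℂ → ℂ := fun z => (z - a) * ψ z with hh
  have hhd : HasStrictDerivAt h (ψ a) a := by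
    have h0 : HasStrictDerivAt (fun z : ℂ => z - a) 1 a := (hasStrictDerivAt_id a).sub_const a
    have h1 := HasStrictDerivAt.fun_mul h0 hψa.hasStrictDerivAt
    simpa using h1
  have hmap := hhd.map_nhds_eq (by simp [hψ])
  have hha : h a = 0 := by simp [hh]
  rw [hha] at hmap
  have hS : {z | z ∈ U ∧ f z - f a = φ a * h z ^ k} ∈ 𝓝 a := by
    filter_upwards [hU.mem_nhds ha, hψk, hφe] with z hz h1 h2
    refine ⟨hz, ?_⟩
    rw [h2, ← h1, hh]
    simp only [smul_eq_mul, mul_pow]; ring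
  have himg : h '' {z | z ∈ U ∧ f z - f a = φ a * h z ^ k} ∈ 𝓝 (0 : ℂ) := by
    rw [← hmap]; exact image_mem_map hS
  obtain ⟨ε, hε, hεs⟩ := Metric.mem_nhds_iff.1 himg
  set ω : ℂ := exp (2 * Real.pi * I / k) with hω
  have hprim : IsPrimitiveRoot ω k := Complex.isPrimitiveRoot_exp k (by omega)
  have hω1 : ω ≠ 1 := hprim.ne_one (by omega)
  have hωn : ‖ω‖ = 1 := hprim.norm'_eq_one (by omega)
  have hw1 : ((ε / 2 : ℝ) : ℂ) ∈ ball (0 : ℂ) ε := by
    simp [abs_of_pos hε]; linarith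
  have hw2 : ω * ((ε / 2 : ℝ) : ℂ) ∈ ball (0 : ℂ) ε := by
    simp [abs_of_pos hε, hωn]; linarith
  obtain ⟨z₁, ⟨hz₁U, hz₁⟩, e₁⟩ := hεs hw1
  obtain ⟨z₂, ⟨hz₂U, hz₂⟩, e₂⟩ := hεs hw2
  have : f z₁ = f z₂ := by
    have : f z₁ - f a = f z₂ - f a := by
      rw [hz₁, hz₂, e₁, e₂, mul_pow, hprim.pow_eq_one, one_mul]
    exact sub_left_injective this
  have h12 := hinj hz₁U hz₂U this
  rw [h12, e₂] at e₁
  have hε0 : ((ε / 2 : ℝ) : ℂ) ≠ 0 := by exact_mod_cast (half_pos hε).ne'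
  exact hω1 (mul_right_cancel₀ hε0 (e₁.trans (one_mul _).symm))

/-- Holomorphic inverse of an injective holomorphic map. -/
theorem hasStrictDerivAt_invFunOn {f : ℂ → ℂ} {U : Set ℂ} (hU : IsOpen U)
    (hf : DifferentiableOn ℂ f U) (hinj : InjOn f U) {a : ℂ} (ha : a ∈ U) :
    HasStrictDerivAt (invFunOn f U) (deriv f a)⁻¹ (f a) := by
  have hfa : AnalyticAt ℂ f a := hf.analyticAt (hU.mem_nhds ha)
  refine hfa.hasStrictDerivAt.to_local_left_inverse (deriv_ne_zero_of_injOn hU hf hinj ha) ?_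
  filter_upwards [hU.mem_nhds ha] with z hz using hinj.leftInvOn_invFunOn hz

theorem isOpen_image_of_injOn {f : ℂ → ℂ} {U : Set ℂ} (hU : IsOpen U)
    (hf : DifferentiableOn ℂ f U) (hinj : InjOn f U) : IsOpen (f '' U) := by
  rw [isOpen_iff_mem_nhds]
  rintro _ ⟨a, ha, rfl⟩
  have hfa : AnalyticAt ℂ f a := hf.analyticAt (hU.mem_nhds ha)
  rw [← hfa.hasStrictDerivAt.map_nhds_eq (deriv_ne_zero_of_injOn hU hf hinj ha)]
  exact image_mem_map (hU.mem_nhds ha)

/-- The disc automorphism moving `b` to `0`. -/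
noncomputable def mob (b w : ℂ) : ℂ := (w - b) / (1 - (starRingEnd ℂ) b * w)

theorem mob_den_ne {b w : ℂ} (hb : ‖b‖ < 1) (hw : ‖w‖ < 1) : 1 - (starRingEnd ℂ) b * w ≠ 0 := by
  intro h
  have h1 : (starRingEnd ℂ) b * w = 1 := by linear_combination -h
  have h2 : ‖b‖ * ‖w‖ = 1 := by simpa using congrArg norm h1
  nlinarith [norm_nonneg b, norm_nonneg w]

theorem norm_mob_lt {b w : ℂ} (hb : ‖b‖ < 1) (hw : ‖w‖ < 1) : ‖mob b w‖ < 1 := by
  rw [mob, norm_div, div_lt_one (norm_pos_iff.2 (mob_den_ne hb hw))]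
  have hb2 : normSq b < 1 := by rw [normSq_eq_norm_sq]; nlinarith [norm_nonneg b]
  have hw2 : normSq w < 1 := by rw [normSq_eq_norm_sq]; nlinarith [norm_nonneg w]
  have : normSq (w - b) < normSq (1 - (starRingEnd ℂ) b * w) := by
    have h : normSq (1 - (starRingEnd ℂ) b * w) - normSq (w - b) =
        (1 - normSq b) * (1 - normSq w) := by
      simp [normSq_apply]; ring
    nlinarith
  rw [normSq_eq_norm_sq, normSq_eq_norm_sq] at this
  exact lt_of_pow_lt_pow_left₀ 2 (norm_nonneg _) this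

theorem mob_inj {b w w' : ℂ} (hb : ‖b‖ < 1) (hw : ‖w‖ < 1) (hw' : ‖w'‖ < 1)
    (h : mob b w = mob b w') : w = w' := by
  rw [mob, mob, div_eq_div_iff (mob_den_ne hb hw) (mob_den_ne hb hw')] at h
  have h1 : (w - w') * (1 - (starRingEnd ℂ) b * b) = 0 := by linear_combination h
  exact sub_eq_zero.1 ((mul_eq_zero.1 h1).resolve_right (mob_den_ne hb hb))

theorem hasDerivAt_mob {b w : ℂ} (hb : ‖b‖ < 1) (hw : ‖w‖ < 1) :
    HasDerivAt (mob b) ((1 - (starRingEnd ℂ) b * b) / (1 - (starRingEnd ℂ) b * w) ^ 2) w := by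
  have h1 : HasDerivAt (fun w : ℂ => w - b) 1 w := (hasDerivAt_id w).sub_const b
  have h2 : HasDerivAt (fun w : ℂ => 1 - (starRingEnd ℂ) b * w) (-((starRingEnd ℂ) b * 1)) w :=
    ((hasDerivAt_id w).const_mul _).const_sub 1
  have h3 := h1.fun_div h2 (mob_den_ne hb hw)
  have e : (1 - (starRingEnd ℂ) b * b) =
      1 * (1 - (starRingEnd ℂ) b * w) - (w - b) * -((starRingEnd ℂ) b * 1) := by ring
  rw [e]
  exact h3

/-- The competing maps in the extremal problem. -/
structure Good (U : Set ℂ) (a : ℂ) (f : ℂ → ℂ) : Prop where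
  diff : DifferentiableOn ℂ f U
  maps : MapsTo f U (ball 0 1)
  inj : InjOn f U
  zero : f a = 0

/-- The square root trick. -/
theorem Good.improve {U : Set ℂ} {a : ℂ} {f : ℂ → ℂ} (hU : IsOpen U) (hUc : IsSimplyConnected U)
    (ha : a ∈ U) (hf : Good U a f) {b : ℂ} (hb : ‖b‖ < 1) (hbf : b ∉ f '' U) :
    ∃ F, Good U a F ∧ ‖deriv f a‖ < ‖deriv F a‖ := by
  have hf1 : ∀ z ∈ U, ‖f z‖ < 1 := fun z hz => by simpa using hf.maps hz
  have hb0 : b ≠ 0 := fun h => hbf ⟨a, ha, by rw [hf.zero, h]⟩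
  set g : ℂ → ℂ := fun z => mob b (f z) with hg
  have hgd : ∀ z ∈ U, HasDerivAt g
      ((1 - (starRingEnd ℂ) b * b) / (1 - (starRingEnd ℂ) b * f z) ^ 2 * deriv f z) z :=
    fun z hz => (hasDerivAt_mob hb (hf1 z hz)).comp z
      (hf.diff.differentiableAt (hU.mem_nhds hz)).hasDerivAt
  have hg0 : ∀ z ∈ U, g z ≠ 0 := by
    intro z hz h
    rw [hg] at h
    simp only [mob, div_eq_zero_iff] at h
    rcases h with h | h
    · exact hbf ⟨z, hz, sub_eq_zero.1 h⟩
    · exact mob_den_ne hb (hf1 z hz) h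
  obtain ⟨h, hhc, hh⟩ := Complex.exists_continuousOn_pow_eq hUc hU (g := g)
    (fun z hz => (hgd z hz).continuousAt.continuousWithinAt)
    (by rintro ⟨z, hz, h⟩; exact hg0 z hz h) two_ne_zero
  have hh0 : ∀ z ∈ U, h z ≠ 0 := fun z hz h0 => hg0 z hz (by rw [← hh z, h0]; simp)
  have hh1 : ∀ z ∈ U, ‖h z‖ < 1 := by
    intro z hz
    have : ‖h z‖ ^ 2 < 1 := by rw [← norm_pow, hh z]; exact norm_mob_lt hb (hf1 z hz)
    nlinarith [norm_nonneg (h z)]
  have hhd : ∀ z ∈ U, HasDerivAt h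
      (((1 - (starRingEnd ℂ) b * b) / (1 - (starRingEnd ℂ) b * f z) ^ 2 * deriv f z)
        / (2 * h z)) z := by
    intro z hz
    refine HasDerivAt.of_comp_left (f := fun w => w ^ 2) (hhc.continuousAt (hU.mem_nhds hz))
      (by simpa using hasDerivAt_pow 2 (h z)) (hgd z hz) (by simpa using hh0 z hz) ?_
    exact Eventually.of_forall fun w => hh w
  set β := h a with hβ
  have hβ1 : ‖β‖ < 1 := hh1 a ha
  refine ⟨fun z => mob β (h z), ⟨?_, ?_, ?_, ?_⟩, ?_⟩
  · intro z hz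
    exact ((hasDerivAt_mob hβ1 (hh1 z hz)).comp z (hhd z hz)).differentiableAt.differentiableWithinAt
  · intro z hz
    simpa using norm_mob_lt hβ1 (hh1 z hz)
  · intro z hz w hw e
    have e1 := mob_inj hβ1 (hh1 z hz) (hh1 w hw) e
    have e2 : g z = g w := by rw [← hh z, ← hh w, e1]
    exact hf.inj hz hw (mob_inj hb (hf1 z hz) (hf1 w hw) e2)
  · simp [mob, hβ]
  · have hd := ((hasDerivAt_mob hβ1 (hh1 a ha)).comp a (hhd a ha)).deriv
    have hβ2 : β ^ 2 = -b := by rw [hβ, hh a, hg]; simp [mob, hf.zero]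
    have hs : ‖β‖ ^ 2 = ‖b‖ := by rw [← norm_pow, hβ2, norm_neg]
    have hβ0 : 0 < ‖β‖ := norm_pos_iff.2 (hh0 a ha)
    have hd0 : 0 < ‖deriv f a‖ :=
      norm_pos_iff.2 (deriv_ne_zero_of_injOn hU hf.diff hf.inj ha)
    have e1 : (1 - (starRingEnd ℂ) β * β) = ((1 - ‖β‖ ^ 2 : ℝ) : ℂ) := by
      rw [Complex.conj_mul']; push_cast; ring
    have e2 : (1 - (starRingEnd ℂ) b * b) = ((1 - ‖β‖ ^ 4 : ℝ) : ℂ) := by
      rw [Complex.conj_mul', ← hs]; push_cast; ring
    have hp1 : 0 < 1 - ‖β‖ ^ 2 := by nlinarith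
    have hp2 : 0 < 1 - ‖β‖ ^ 4 := by nlinarith
    change ‖deriv f a‖ < ‖deriv (mob β ∘ h) a‖
    rw [hd, ← hβ, hf.zero, e1, e2]
    simp only [mul_zero, sub_zero, one_pow, div_one, norm_mul, norm_div, norm_pow, norm_real,
      Real.norm_eq_abs, abs_of_pos hp1, abs_of_pos hp2, Complex.norm_ofNat]
    have e3 : (1 - ‖β‖ ^ 2) / (1 - ‖β‖ ^ 2) ^ 2 * ((1 - ‖β‖ ^ 4) * ‖deriv f a‖ / (2 * ‖β‖)) =
        ‖deriv f a‖ * ((1 + ‖β‖ ^ 2) / (2 * ‖β‖)) := by
      field_simp; ring
    rw [e3]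
    refine lt_mul_of_one_lt_right hd0 ?_
    rw [one_lt_div (by positivity)]
    nlinarith [sq_pos_of_pos (sub_pos.2 hβ1)]

/-- Montel's theorem along an ultrafilter, for maps into the unit disc. -/
theorem exists_tendstoLocallyUniformlyOn {ι : Type*} (l : Ultrafilter ι) {F : ι → ℂ → ℂ}
    {U : Set ℂ} (hU : IsOpen U) (hF : ∀ i, DifferentiableOn ℂ (F i) U)
    (hFm : ∀ i, MapsTo (F i) U (ball 0 1)) :
    ∃ f : ℂ → ℂ, TendstoLocallyUniformlyOn F f l U := by
  have h1 : ∀ z, ∃ w, z ∈ U → Tendsto (fun i => F i z) l (𝓝 w) := by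
    intro z
    by_cases hz : z ∈ U
    · obtain ⟨w, -, hw⟩ := (isCompact_closedBall (0 : ℂ) 1).ultrafilter_le_nhds
        (l.map fun i => F i z) (by
          rw [le_principal_iff]
          exact mem_map.2 (Eventually.of_forall fun i => ball_subset_closedBall (hFm i hz)))
      exact ⟨w, fun _ => hw⟩
    · exact ⟨0, fun h => absurd h hz⟩
  choose f hf using h1
  refine ⟨f, Metric.tendstoLocallyUniformlyOn_iff.2 fun ε hε x hx => ?_⟩
  obtain ⟨r, hr, hrU⟩ := Metric.isOpen_iff.1 hU x hx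
  have hlip : ∀ i, ∀ y ∈ ball x r, dist (F i y) (F i x) ≤ 2 / r * dist y x := by
    intro i y hy
    refine Complex.dist_le_div_mul_dist_of_mapsTo_ball ((hF i).mono hrU) ?_ hy
    intro z hz
    have h1 : ‖F i z‖ < 1 := by simpa using hFm i (hrU hz)
    have h2 : ‖F i x‖ < 1 := by simpa using hFm i hx
    have := norm_sub_le (F i z) (F i x)
    rw [mem_closedBall, dist_eq_norm]; linarith
  set δ := min r (ε * r / 8) with hδ
  have hδ0 : 0 < δ := lt_min hr (by positivity)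
  refine ⟨ball x δ, mem_nhdsWithin_of_mem_nhds (ball_mem_nhds x hδ0), ?_⟩
  filter_upwards [Metric.tendsto_nhds.1 (hf x hx) (ε / 4) (by positivity)] with i hi y hy
  have hyr : y ∈ ball x r := ball_subset_ball (min_le_left _ _) hy
  have hb : 2 / r * dist y x ≤ ε / 4 := by
    have : dist y x ≤ ε * r / 8 := (mem_ball.1 hy).le.trans (min_le_right _ _)
    calc 2 / r * dist y x ≤ 2 / r * (ε * r / 8) := by gcongr
      _ = ε / 4 := by field_simp; ring
  have h2 : dist (f y) (f x) ≤ ε / 4 :=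
    le_of_tendsto ((hf y (hrU hyr)).dist (hf x hx))
      (Eventually.of_forall fun j => (hlip j y hyr).trans hb)
  have h3 := (hlip i y hyr).trans hb
  have h4 := dist_triangle4 (f y) (f x) (F i x) (F i y)
  rw [dist_comm (f x), dist_comm (F i x) (F i y)] at h4
  linarith

theorem exists_good_surj {U : Set ℂ} (hU : IsOpen U) (hUc : IsSimplyConnected U)
    (hUb : Bornology.IsBounded U) {a : ℂ} (ha : a ∈ U) :
    ∃ f, Good U a f ∧ f '' U = ball 0 1 := by
  have hpc : IsPreconnected U := hUc.isPathConnected.isConnected.isPreconnected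
  obtain ⟨B, hB0, hB⟩ := hUb.subset_ball_lt 0 a
  obtain ⟨r, hr, hrU⟩ := Metric.isOpen_iff.1 hU a ha
  have hB' : (B : ℂ) ≠ 0 := by exact_mod_cast hB0.ne'
  have hg₀ : Good U a (fun z => (z - a) / B) := by
    refine ⟨by fun_prop, fun z hz => ?_, fun z _ w _ e => ?_, by simp⟩
    · have := hB hz
      rw [mem_ball, dist_eq_norm] at this
      simp [abs_of_pos hB0, div_lt_one hB0, this]
    · have := (div_left_inj' hB').1 e
      exact sub_left_injective this
  set S : Set ℝ := {s | ∃ f, Good U a f ∧ ‖deriv f a‖ = s} with hS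
  have hSne : S.Nonempty := ⟨_, _, hg₀, rfl⟩
  have hSb : BddAbove S := by
    refine ⟨1 / r, ?_⟩
    rintro _ ⟨f, hf, rfl⟩
    refine Complex.norm_deriv_le_div_of_mapsTo_ball (hf.diff.mono hrU) ?_ hr
    intro z hz
    rw [hf.zero]
    exact ball_subset_closedBall (hf.maps (hrU hz))
  obtain ⟨u, -, hu, huS⟩ := exists_seq_tendsto_sSup hSne hSb
  choose F hF hFu using huS
  set l : Ultrafilter ℕ := Ultrafilter.of atTop with hl
  have hll : (l : Filter ℕ) ≤ atTop := Ultrafilter.of_le _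
  obtain ⟨f, hf⟩ := exists_tendstoLocallyUniformlyOn l hU (fun i => (hF i).diff)
    (fun i => (hF i).maps)
  have hFd : ∀ᶠ i in (l : Filter ℕ), DifferentiableOn ℂ (F i) U :=
    Eventually.of_forall fun i => (hF i).diff
  have hfd : DifferentiableOn ℂ f U := hf.differentiableOn hFd hU
  have hfa : f a = 0 := by
    have := hf.tendsto_at ha
    simp only [(hF _).zero] at this
    exact tendsto_nhds_unique this tendsto_const_nhds
  have hder : ‖deriv f a‖ = sSup S := by
    have h1 := ((hf.deriv hFd hU).tendsto_at ha).norm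
    simp only [Function.comp, hFu] at h1
    exact tendsto_nhds_unique h1 (hu.mono_left hll)
  have hpos : 0 < ‖deriv f a‖ := by
    rw [hder]
    refine lt_of_lt_of_le ?_ (le_csSup hSb ⟨_, hg₀, rfl⟩)
    exact norm_pos_iff.2 (deriv_ne_zero_of_injOn hU hg₀.diff hg₀.inj ha)
  have hle : ∀ z ∈ U, ‖f z‖ ≤ 1 := fun z hz =>
    le_of_tendsto (hf.tendsto_at hz).norm (Eventually.of_forall fun i =>
      (mem_ball_zero_iff.1 ((hF i).maps hz)).le)
  have hmaps : MapsTo f U (ball 0 1) := by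
    intro z hz
    rw [mem_ball_zero_iff]
    refine lt_of_le_of_ne (hle z hz) fun h => ?_
    have := Complex.norm_eqOn_of_isPreconnected_of_isMaxOn hpc hU hfd hz
      (fun w hw => by simpa [h] using hle w hw) ha
    simp [hfa, h] at this
  have hinj : InjOn f U := by
    intro z hz w hw e
    by_contra hne
    have hV : IsOpen (U \ {z}) := hU.sdiff isClosed_singleton
    have hlim : TendstoLocallyUniformlyOn (fun i y => F i y - F i z) (fun y => f y - f z) l
        (U \ {z}) := by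
      refine (hf.mono sdiff_subset).sub ?_
      exact ((hf.tendsto_at hz).tendstoUniformlyOn_const _).tendstoLocallyUniformlyOn
    have h1 := hurwitz_local hV
      (Eventually.of_forall fun i => ((hF i).diff.mono sdiff_subset).sub_const _)
      (Eventually.of_forall fun i y hy h => hy.2 ((hF i).inj hy.1 hz (sub_eq_zero.1 h)))
      hlim (c := w) ⟨hw, fun h => hne (Set.mem_singleton_iff.1 h).symm⟩ (by simp [e])
    have han : AnalyticOnNhd ℂ (fun y => f y - f z) U :=
      (hfd.sub_const _).analyticOnNhd hU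
    have h2 := han.eqOn_zero_of_preconnected_of_eventuallyEq_zero hpc hw h1
    have h3 : f =ᶠ[𝓝 a] fun _ => f z := by
      filter_upwards [hU.mem_nhds ha] with y hy using sub_eq_zero.1 (h2 hy)
    rw [h3.deriv_eq] at hpos
    simp at hpos
  have hgood : Good U a f := ⟨hfd, hmaps, hinj, hfa⟩
  refine ⟨f, hgood, Subset.antisymm hmaps.image_subset fun b hb => ?_⟩
  by_contra hbf
  obtain ⟨G, hG, hlt⟩ := hgood.improve hU hUc ha (by simpa using hb) hbf
  have := le_csSup hSb (show ‖deriv G a‖ ∈ S from ⟨G, hG, rfl⟩)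
  linarith

/-- **Riemann mapping theorem** for bounded simply connected open sets. -/
theorem riemann_mapping {U : Set ℂ} (hU : IsOpen U) (hUc : IsSimplyConnected U)
    (hUb : Bornology.IsBounded U) {a : ℂ} (ha : a ∈ U) :
    ∃ f F : ℂ → ℂ, DifferentiableOn ℂ f U ∧ DifferentiableOn ℂ F (ball 0 1) ∧
      MapsTo f U (ball 0 1) ∧ MapsTo F (ball 0 1) U ∧ (∀ z ∈ U, F (f z) = z) ∧
      (∀ w ∈ ball (0 : ℂ) 1, f (F w) = w) ∧ f a = 0 := by
  obtain ⟨f, hf, him⟩ := exists_good_surj hU hUc hUb ha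
  refine ⟨f, invFunOn f U, hf.diff, ?_, hf.maps, ?_, fun z hz => hf.inj.leftInvOn_invFunOn hz,
    ?_, hf.zero⟩
  · intro w hw
    rw [← him] at hw
    obtain ⟨z, hz, rfl⟩ := hw
    exact (hasStrictDerivAt_invFunOn hU hf.diff hf.inj
      hz).hasDerivAt.differentiableAt.differentiableWithinAt
  · intro w hw
    rw [← him] at hw
    exact invFunOn_mem hw
  · intro w hw
    rw [← him] at hw
    exact invFunOn_eq hw

end Crest.Agent.Lib.RMT
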